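import Vale.Agent.P269.G1I.T.H984_ZA2
import Vale.Agent.P269.G1I.ZAbs

/-!
# [ZA3] the cyclic identity behind the loop term
-/

namespace Vale.Agent.P269.G1.H780

open Finset.HasAntidiagonal (antidiagonal)

/-- triple sums, the middle index in front -/
theorem sum_triple {M : Type*} [AddCommMonoid M] (w : ℕ → ℕ → M) (q : ℕ) :
    ∑ e ∈ antidiagonal q, ∑ f ∈ antidiagonal e.2, w f.1 (e.1 + f.2) =
      ∑ e ∈ antidiagonal q, (e.2 + 1) • w e.1 e.2 := by
  have h : ∀ e ∈ antidiagonal q, (e.2 + 1) • w e.1 e.2 =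
      ∑ _f ∈ antidiagonal e.2, w e.1 e.2 := by
    intro e _
    rw [Finset.sum_const, Finset.Nat.card_antidiagonal]
  rw [Finset.sum_congr rfl h, Finset.sum_sigma', Finset.sum_sigma']
  refine Finset.sum_nbij' (fun x => ⟨(x.2.1, x.1.1 + x.2.2), (x.1.1, x.2.2)⟩)
    (fun x => ⟨(x.2.1, x.1.1 + x.2.2), (x.1.1, x.2.2)⟩) ?_ ?_ ?_ ?_ ?_
  · rintro ⟨⟨a, b⟩, ⟨c, d⟩⟩ hx
    simp only [Finset.mem_sigma, Finset.HasAntidiagonal.mem_antidiagonal] at hx ⊢
    obtain ⟨h1, h2⟩ := hx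
    exact ⟨by omega, trivial⟩
  · rintro ⟨⟨a, b⟩, ⟨c, d⟩⟩ hx
    simp only [Finset.mem_sigma, Finset.HasAntidiagonal.mem_antidiagonal] at hx ⊢
    obtain ⟨h1, h2⟩ := hx
    exact ⟨by omega, trivial⟩
  · rintro ⟨⟨a, b⟩, ⟨c, d⟩⟩ hx
    simp only [Finset.mem_sigma, Finset.HasAntidiagonal.mem_antidiagonal] at hx
    obtain ⟨_, h2⟩ := hx
    subst h2
    rfl
  · rintro ⟨⟨a, b⟩, ⟨c, d⟩⟩ hx
    simp only [Finset.mem_sigma, Finset.HasAntidiagonal.mem_antidiagonal] at hx
    obtain ⟨_, h2⟩ := hx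
    subst h2
    rfl
  · rintro ⟨⟨a, b⟩, ⟨c, d⟩⟩ _
    rfl

section

variable {R : Type*} {O : Type*} [CommRing R] [Algebra ℚ R] [Ring O] [Algebra R O]

theorem str_kk (str : O →ₗ[R] R) (c : ℚ) (x : O) :
    str (kk R c * x) = algebraMap ℚ R c * str x := by
  unfold kk
  rw [← Algebra.smul_def, map_smul, smul_eq_mul]

/-- the two shifts cancel up to a constant -/
theorem shift (str : O →ₗ[R] R) (hstr : ∀ a b, str (a * b) = str (b * a)) (U mu : O)
    (b m : ℕ) :
    str ((kk R (1 / 2) + mu) * U ^ b * ((kk R (-1 / 2) + mu) * U ^ m)) =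
      str (mu * U ^ b * mu * U ^ m) - algebraMap ℚ R (1 / 4) * str (U ^ (b + m)) := by
  have hc : ∀ (c : ℚ) (x : O), x * kk R c = kk R c * x := by
    intro c x
    unfold kk
    exact (Algebra.commutes _ _).symm
  have e1 : (kk R (1 / 2) + mu) * U ^ b * ((kk R (-1 / 2) + mu) * U ^ m) =
      kk R (1 / 2) * (kk R (-1 / 2) * U ^ (b + m)) + kk R (1 / 2) * (U ^ b * (mu * U ^ m)) +
        (kk R (-1 / 2) * (mu * U ^ b * U ^ m) + mu * U ^ b * mu * U ^ m) := by
    rw [add_mul, add_mul, add_mul (kk R (-1 / 2)) mu, mul_add, mul_add, pow_add]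
    rw [show mu * U ^ b * (kk R (-1 / 2) * U ^ m) = (mu * U ^ b * kk R (-1 / 2)) * U ^ m by
      simp only [mul_assoc], hc]
    rw [show kk R (1 / 2) * U ^ b * (kk R (-1 / 2) * U ^ m) =
      kk R (1 / 2) * ((U ^ b * kk R (-1 / 2)) * U ^ m) by simp only [mul_assoc], hc]
    simp only [mul_assoc]
  have e2 : str (U ^ b * (mu * U ^ m)) = str (mu * U ^ b * U ^ m) := by
    rw [hstr, mul_assoc, mul_assoc, ← pow_add, ← pow_add, Nat.add_comm m b]
  rw [e1, map_add, map_add, map_add, str_kk, str_kk, str_kk, str_kk, e2]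
  have h1 : algebraMap ℚ R (-1 / 2) = - algebraMap ℚ R (1 / 2) := by
    rw [← map_neg]; norm_num
  have h2 : algebraMap ℚ R (1 / 4) = algebraMap ℚ R (1 / 2) * algebraMap ℚ R (1 / 2) := by
    rw [← map_mul]; norm_num
  rw [h1, h2]
  ring

/-- **[ZA3]** the cyclic identity behind the loop term -/
theorem loop_cyclic (str : O →ₗ[R] R)
    (hstr : ∀ a b, str (a * b) = str (b * a)) (U mu : O) (q : ℕ) :
    str (U * DD R U mu (-1) (q + 1) 1) = ((q : ℕ) : R) * ((1 / 2 : ℚ) •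
      (∑ e ∈ antidiagonal q, str (mu * U ^ e.1 * mu * U ^ e.2)) -
        ((q + 1 : ℕ) : R) * ((1 / 8 : ℚ) • str (U ^ q))) := by
  -- the weight function
  set v : ℕ → ℕ → R := fun b m =>
    str ((kk R (1 / 2) + mu) * U ^ b * ((kk R (-1 / 2) + mu) * U ^ m)) with hv
  have h1 : str (U * DD R U mu (-1) (q + 1) 1) =
      ∑ e ∈ antidiagonal q, ∑ f ∈ antidiagonal e.2,
        if f.1 = 0 then 0 else v (f.1 - 1) (e.1 + f.2 + 1) := by
    rw [DD_neg_one, Finset.Nat.sum_antidiagonal_succ]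
    simp only [if_true, zero_add, Nat.succ_ne_zero, if_false, Nat.add_sub_cancel]
    rw [Finset.mul_sum, map_sum]
    refine Finset.sum_congr rfl fun e _ => ?_
    rw [Finset.mul_sum, map_sum]
    refine Finset.sum_congr rfl fun f _ => ?_
    split_ifs with h
    · rw [mul_zero, map_zero]
    · rw [hv]
      simp only
      rw [show U * (U ^ e.1 * (kk R (1 / 2) + mu) * U ^ (f.1 - 1) * (kk R (-1 / 2) + mu) *
          U ^ f.2) = U ^ (e.1 + 1) * ((kk R (1 / 2) + mu) * U ^ (f.1 - 1) *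
          ((kk R (-1 / 2) + mu) * U ^ f.2)) by
        rw [pow_succ' U e.1]; simp only [mul_assoc]]
      rw [hstr]
      rw [show (kk R (1 / 2) + mu) * U ^ (f.1 - 1) * ((kk R (-1 / 2) + mu) * U ^ f.2) *
          U ^ (e.1 + 1) = (kk R (1 / 2) + mu) * U ^ (f.1 - 1) * ((kk R (-1 / 2) + mu) *
          (U ^ f.2 * U ^ (e.1 + 1))) by simp only [mul_assoc], ← pow_add]
      rw [show f.2 + (e.1 + 1) = e.1 + f.2 + 1 by omega]
  have h2 := sum_triple (fun b m => if b = 0 then (0 : R) else v (b - 1) (m + 1)) q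
  rw [h1, h2]
  have h3 : ∑ e ∈ antidiagonal q, (e.2 + 1) • (if e.1 = 0 then (0 : R) else
      v (e.1 - 1) (e.2 + 1)) = ∑ e ∈ antidiagonal q, e.2 • v e.1 e.2 := by
    cases q with
    | zero => simp
    | succ r =>
      rw [Finset.Nat.sum_antidiagonal_succ, Finset.Nat.sum_antidiagonal_succ']
      simp
  rw [h3]
  have h4 : ∀ e ∈ antidiagonal q, e.2 • v e.1 e.2 =
      e.2 • str (mu * U ^ e.1 * mu * U ^ e.2) -
        (e.2 : R) * (algebraMap ℚ R (1 / 4) * str (U ^ q)) := by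
    intro e he
    rw [Finset.HasAntidiagonal.mem_antidiagonal] at he
    rw [hv]
    simp only
    rw [shift str hstr, he, smul_sub, nsmul_eq_mul, nsmul_eq_mul]
  rw [Finset.sum_congr rfl h4, Finset.sum_sub_distrib, ← Finset.sum_mul]
  -- the symmetric sum
  have hsym : ∀ b m : ℕ, str (mu * U ^ b * mu * U ^ m) = str (mu * U ^ m * mu * U ^ b) := by
    intro b m
    rw [mul_assoc (mu * U ^ b), hstr, ← mul_assoc]
  have h5 : (2 : R) * ∑ e ∈ antidiagonal q, e.2 • str (mu * U ^ e.1 * mu * U ^ e.2) =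
      (q : R) * ∑ e ∈ antidiagonal q, str (mu * U ^ e.1 * mu * U ^ e.2) := by
    have h6 : ∑ e ∈ antidiagonal q, e.2 • str (mu * U ^ e.1 * mu * U ^ e.2) =
        ∑ e ∈ antidiagonal q, e.1 • str (mu * U ^ e.1 * mu * U ^ e.2) := by
      rw [← Finset.Nat.sum_antidiagonal_swap]
      refine Finset.sum_congr rfl fun e _ => ?_
      simp only [Prod.fst_swap, Prod.snd_swap]
      rw [hsym]
    rw [two_mul]
    nth_rw 2 [h6]
    rw [← Finset.sum_add_distrib, Finset.mul_sum]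
    refine Finset.sum_congr rfl fun e he => ?_
    rw [Finset.HasAntidiagonal.mem_antidiagonal] at he
    rw [nsmul_eq_mul, nsmul_eq_mul, ← he]
    push_cast
    ring
  have h7 : (2 : R) * ∑ e ∈ antidiagonal q, (e.2 : R) = (q : R) * (q + 1) := by
    have h8 : ∑ e ∈ antidiagonal q, (e.2 : R) = ∑ e ∈ antidiagonal q, (e.1 : R) := by
      rw [← Finset.Nat.sum_antidiagonal_swap]
      rfl
    rw [two_mul]
    nth_rw 2 [h8]
    rw [← Finset.sum_add_distrib]
    have h9 : ∀ e ∈ antidiagonal q, (e.2 : R) + (e.1 : R) = (q : R) := by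
      intro e he
      rw [Finset.HasAntidiagonal.mem_antidiagonal] at he
      rw [← he]
      push_cast
      ring
    rw [Finset.sum_congr rfl h9, Finset.sum_const, Finset.Nat.card_antidiagonal, nsmul_eq_mul]
    push_cast
    ring
  have half : algebraMap ℚ R (1 / 2) * 2 = 1 := by
    rw [show (2 : R) = algebraMap ℚ R 2 by rw [map_ofNat], ← map_mul]
    norm_num
  have h10 : algebraMap ℚ R (1 / 8) = algebraMap ℚ R (1 / 4) * algebraMap ℚ R (1 / 2) := by
    rw [← map_mul]; norm_num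
  rw [Algebra.smul_def, Algebra.smul_def, h10]
  push_cast
  set A := ∑ e ∈ antidiagonal q, e.2 • str (mu * U ^ e.1 * mu * U ^ e.2)
  set B := ∑ e ∈ antidiagonal q, str (mu * U ^ e.1 * mu * U ^ e.2)
  set C := ∑ e ∈ antidiagonal q, (e.2 : R)
  set s := algebraMap ℚ R (1 / 2)
  set t := algebraMap ℚ R (1 / 4)
  set x := str (U ^ q)
  linear_combination s * h5 - (A - C * t * x) * half - s * t * x * h7
end

end Vale.Agent.P269.G1.H780
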