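import Vale.Agent.P269.G1I.T.H856_DC2
import Vale.Agent.P269.G1I.T.H901_CorOne
import Vale.Agent.P269.G1I.T.H980_VirAct
import Vale.Agent.P269.G1I.BBig
import Vale.Agent.P269.G1I.BSpec

/-!
# [DC] the genus-one Virasoro coefficients at a general point
-/

namespace Vale.Agent.P269.G1.H780

open Finset.HasAntidiagonal (antidiagonal)
open Vale.Agent.P269.CI
open Vale.Agent.P269.H597 (coh)

variable {X : CompleteIntersection} {n : ℕ}

/-- the action in coordinates -/
theorem actB_apply (a : OB X n) (x : Fin (X.dim + 1) → RB n) (c : Fin (X.dim + 1)) :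
    actB X n a x c = ∑ b, a.1 c b * x b := rfl

/-- a linear map of the sum of columns -/
theorem sum_col {M : Type*} [AddCommMonoid M] [Module (RB n) M]
    (f : (Fin (X.dim + 1) → RB n) →ₗ[RB n] M) (a : OB X n) (x : Fin (X.dim + 1) → RB n) :
    f (actB X n a x) = ∑ b, x b • f (fun c => a.1 c b) := by
  have h : actB X n a x = ∑ b, x b • (fun c => a.1 c b) := by
    funext c
    rw [actB_apply, Finset.sum_apply]
    refine Finset.sum_congr rfl fun b _ => ?_
    rw [Pi.smul_apply, smul_eq_mul, mul_comm]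
  rw [h, map_sum]
  refine Finset.sum_congr rfl fun b _ => ?_
  rw [map_smul]

theorem muc_eq (c : ℚ) :
    muc X n (c : ℂ) = algebraMap (RB n) (OB X n) (algebraMap ℚ (RB n) c) + muB X n := by
  have hc : algebraMap ℚ (RB n) c = cb n (c : ℂ) := by
    unfold cb
    rw [MvPowerSeries.algebraMap_apply, PowerSeries.algebraMap_apply, eq_ratCast]
  have hadd : ∀ x : ℂ, cb n ((c : ℂ) + x) = cb n (c : ℂ) + cb n x := by
    intro x
    unfold cb
    rw [map_add, map_add]
  rw [hc]
  refine Prod.ext ?_ ?_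
  · refine Matrix.ext fun i j => ?_
    change (Matrix.diagonal fun b => cb n ((c : ℂ) + mu X (Sum.inl b))) i j =
      (algebraMap (RB n) (Matrix (Fin (X.dim + 1)) (Fin (X.dim + 1)) (RB n)) (cb n (c : ℂ))) i j +
        (Matrix.diagonal fun b => cb n (mu X (Sum.inl b))) i j
    rw [Matrix.algebraMap_matrix_apply]
    by_cases h : i = j
    · subst h
      rw [Matrix.diagonal_apply_eq, Matrix.diagonal_apply_eq, if_pos rfl, hadd]
      rfl
    · rw [Matrix.diagonal_apply_ne _ h, Matrix.diagonal_apply_ne _ h, if_neg h, add_zero]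
  · funext v
    exact hadd _

variable (E : Fam X n) {F : ℕ → ℕ → List (Ins X) → ℂ}

/-- **[DC]** the genus-one Virasoro coefficients at a general point; from `vir_act`,
`cor_one_lev`, `cB_zero`, `cB_one` -/
theorem vir_big (hF : IsGW X F) (h1 : IsGenusOne F) (k : ℕ) :
    sr E (fun d L => virasoro X F (k + 1) 1 d L) = (big E hF h1).zlin (k + 1) +
      cb n (1 / 2) * loopB E F k + (if k = 0 then cb n (coh X).kap else 0) := by
  obtain ⟨N, hN, hN2⟩ : ∃ N, (∀ i, (E.e i).2 + k + 2 ≤ N) ∧ k + 3 ≤ N := by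
    refine ⟨(∑ i, (E.e i).2) + k + 3, fun i => ?_, by omega⟩
    have := Finset.single_le_sum (f := fun i => (E.e i).2) (fun _ _ => Nat.zero_le _)
      (Finset.mem_univ i)
    omega
  rw [vir_act E hF h1 k N hN hN2]
  congr 2
  -- the linear part
  have hG : ∑ p ∈ Finset.range N, ∑ b, cB E h1 N k p b *
      GB E F (fun c => (SB E h1 p).1 c b) =
      GB E F (- actB X n (UB E h1 ^ (k + 1)) (gB E h1 1)) := by
    rw [← cB_zero E hF h1 k N hN hN2, map_sum]
    refine Finset.sum_congr rfl fun p _ => ?_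
    rw [sum_col]
    rfl
  have hC : ∑ p ∈ Finset.range N, ∑ b, cB E h1 N k p b *
      (if p = 0 then 0 else
        (1 / 24 : ℚ) • strB X n (CB E h1 fun c => (SB E h1 (p - 1)).1 c b)) =
      (1 / 24 : ℚ) • strB X n (CB E h1 (- ((∑ e ∈ antidiagonal (k + 1), if e.1 = 0 then 0 else
        actB X n (UB E h1 ^ (e.1 - 1) * muc X n (3 / 2) * UB E h1 ^ e.2) (gB E h1 1)) +
        actB X n (UB E h1 ^ (k + 1)) (gB E h1 2)))) := by
    rw [← cB_one E hF h1 k N hN hN2]
    obtain ⟨M, rfl⟩ : ∃ M, N = M + 1 := ⟨N - 1, by omega⟩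
    rw [Finset.sum_range_succ' (fun p => ∑ b, cB E h1 (M + 1) k p b * _) M,
      Finset.sum_range_succ (fun p => actB X n (SB E h1 p) (cB E h1 (M + 1) k (p + 1))) M,
      cB_high E h1 k (M + 1) (M + 1) hN hN2 (by omega), map_zero, add_zero]
    simp only [if_true, mul_zero, Finset.sum_const_zero, add_zero, Nat.succ_ne_zero, if_false,
      Nat.add_sub_cancel]
    rw [map_sum, map_sum, Finset.smul_sum]
    refine Finset.sum_congr rfl fun p _ => ?_
    rw [sum_col, map_sum, Finset.smul_sum]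
    refine Finset.sum_congr rfl fun b _ => ?_
    rw [map_smul, smul_eq_mul, mul_smul_comm]
  have hsum : ∑ p ∈ Finset.range N, ∑ b, cB E h1 N k p b * sr E (cor F 1 [(Sum.inl b, p)]) =
      GB E F (- actB X n (UB E h1 ^ (k + 1)) (gB E h1 1)) +
      (1 / 24 : ℚ) • strB X n (CB E h1 (- ((∑ e ∈ antidiagonal (k + 1), if e.1 = 0 then 0 else
        actB X n (UB E h1 ^ (e.1 - 1) * muc X n (3 / 2) * UB E h1 ^ e.2) (gB E h1 1)) +
        actB X n (UB E h1 ^ (k + 1)) (gB E h1 2)))) := by
    rw [← hG, ← hC, ← Finset.sum_add_distrib]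
    refine Finset.sum_congr rfl fun p _ => ?_
    rw [← Finset.sum_add_distrib]
    refine Finset.sum_congr rfl fun b _ => ?_
    rw [cor_one_lev E hF h1 b p, mul_add]
  rw [hsum]
  unfold Big.zlin
  have hmuc : muc X n (3 / 2) = algebraMap (RB n) (OB X n) (algebraMap ℚ (RB n) (3 / 2)) +
      muB X n := by
    rw [← muc_eq]
    norm_num
  rw [hmuc, map_neg, map_neg, map_neg, smul_neg, ← neg_add]
  rfl

end Vale.Agent.P269.G1.H780
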